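import Vale.Agent.P032.R2.H805.S2m.W3.P0
import Vale.Agent.P032.R2.H805.S2m.W3.P1
import Vale.Agent.P032.R2.H805.S2m.W3.P2
import Vale.Agent.P032.R2.H805.Cov

/-!
# P032: root S2m, start word 3: start, step, end
-/

set_option autoImplicit false
set_option maxRecDepth 100000

namespace Vale.Agent.P032.R2.H805.S2m.W3

open Vale.Agent.P032.R2.H741.Tp
open Vale.Agent.P032.R2.H805.Step
open Vale.Agent.P032.R2.H805.Rup

section

variable {S : Sem}

theorem stepB (A : Ax G S) (H : Hds (val S) BX) : Hns (val S) B :=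
  hns_cons (Blk0.blk A H) (
  hns_cons (Blk1.blk A H) (
  hns_cons (Blk2.blk A H) (hns_nil)))

theorem f1 (A : Ax G S) : Hd (val S) (List.map nxl [1105]) := A.l .first rfl

theorem hx (h : Hd (val S) [1105]) (H : Hds (val S) B) : Hds (val S) BX := by
  intro b hb
  rcases List.mem_append.1 hb with h1 | h1
  · exact H b h1
  · rw [List.mem_singleton.1 h1]
    have h2 : ∀ c ∈ exF, (1105 : ℕ) ∈ c := by decide
    intro c hc
    obtain ⟨j, hj, hl⟩ := h
    rw [List.mem_singleton] at hj
    exact ⟨1105, h2 c hc, hj ▸ hl⟩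

theorem hx2 (h : ∀ c ∈ ex, Hd (val S) c) (H : Hds (val S) B) : Hds (val S) BX := by
  intro b hb
  rcases List.mem_append.1 hb with h1 | h1
  · exact H b h1
  · rw [List.mem_singleton.1 h1]
    have h2 : ∀ c ∈ exF, ∃ e ∈ ex, ∀ j ∈ e, j ∈ c := by decide
    intro c hc
    obtain ⟨e, he, h3⟩ := h2 c hc
    obtain ⟨j, hj, hl⟩ := h e he
    exact ⟨j, h3 j hj, hl⟩

/-- **step** -/
theorem step (A : Ax G S) (H : ∀ c ∈ inv, Hd (val S) c) : ∀ c ∈ inv, Hd (val S) (c.map nxl) := by
  have h1 := List.forall_mem_cons.1 H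
  exact List.forall_mem_cons.2 ⟨f1 A, hns_flat.1 (stepB A (hx h1.1 (hds_flat.2 h1.2)))⟩

theorem e0 : fns G B [.some 0 3, .uniq 0 2 1 2, .uniq 1 0 0 1, .uniq 1 0 0 2, .uniq 1 2 0 2, .uniq 1 2 1 2, .legal 0 2 1, .legal 0 3 3, .legal 1 0 1, .legal 1 1 1, .legal 1 2 0, .legal2 0 1 1 0 3, .legal2 0 1 2 1 3, .legal2 0 1 3 3 1, .legal2 0 1 3 3 2, .legal2 0 1 4 1 3]
    [.closeX 0 1 0 1, .closeX 0 2 1 1, .closeX 0 3 0 0, .closeX 0 3 2 0, .closeX 0 4 1 1, .closeX 1 0 0 1]
    [0, 1, 2, 3, 4, 5, 9, 95, 128] 0x44019118e18c1891842d30112ce2cd2cb2c70042cc2c50132c92ca2c82c22c12c000a00900f00e00d00c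
    [[0,2,4,6], [9,11], [13,15], [13,17], [19,21], [23,21], [9,3], [7,25], [15,27], [27,23], [19,29], [31,33], [9,35], [7,37], [7,39], [41,43], [30,45], [8,47], [1,48], [5,50], [40,53], [12,55], [44], [46], [49], [51], [52], [24,26,32,20,34,38,54], [10,24,18,22,36,54], [10,24,14,16,32,18,36,42], [0,2,14,32,28]]
    28 6 100 1
    (.leaf 0x20000000000000040000000000000000000080000002000000000800000000000000000040000000002000000000000000000001000000000000020038000800000000000000100000000000040000000000000000000000008002000000000000000002000000000000200000000000000000000100010000000000000000000008000000000100000000000000000000b0000004000000000000000014083000000002513a000000008041a20000000080b34000000000400000020000000000000100000000000000000000080000000000000400000800000000000404000000010000000000042000000000000110000000800000000001004000000008000030000000000000080008000000000400080000000002001000000000018000000000000042000000000000280000000000002080000000000010080000000000001200000000000c000000000000060000000000000140000000000000c00000000000003000000000000000000000f)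
    [0x1ca31b2b934d402b3006cc0766c6bab20097dc2c58a49ebb31a005b000bb5f0c4be2927010b8055b01e9aaae400fa4022900ea408629c03650079400a50126003230115c04d900180051a] 31 53 = true := by
  decide +kernel

/-- **end** -/
theorem fin (A : ∀ f : CS, f.ok G = true → Hd (val S) (f.cl G))
    (A2 : ∀ f : CB, f.ok G = true → Hd (val S) (f.cl G)) : ¬ ∀ c ∈ inv, Hd (val S) c :=
  fun H => fns_sound A A2 e0 (hds_flat.2 (List.forall_mem_cons.1 H).2)

theorem i0 : stu G units [.uniq 0 4 0 3]
    [.initX 0 4 0 1, .initX 0 4 3 1]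
    [793] 0x19118918418117c18f18c013010
    [[1,3], [0,5], [2,7], [8], [10], [12], [14], [6], [16], [4]]
    9 4 10 1
    (.leaf 0x10000001000100100000200080001000020000401002020040600)
    [0x3c801b02a] 10 12 = true := by
  decide +kernel

theorem j0 (A : ∀ f : CS, f.ok G = true → Hd (val S) (f.cl G))
    (A2 : ∀ f : CI, f.ok G = true → Hd (val S) (f.cl G)) (hU : ∀ c ∈ units, Hd (val S) c) :
    Hd (val S) [793] :=
  stu_sound A A2 hU i0

theorem i1 : stu G units [.uniq 0 4 2 3]
    [.initX 0 4 2 1, .initX 0 4 3 1]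
    [797] 0x19118918418117c18f18e013012
    [[1,3], [0,5], [2,7], [8], [10], [12], [14], [6], [16], [4]]
    9 4 10 1
    (.leaf 0x10000001000100100000200080001000020000401002020040600)
    [0x3c801b02a] 10 12 = true := by
  decide +kernel

theorem j1 (A : ∀ f : CS, f.ok G = true → Hd (val S) (f.cl G))
    (A2 : ∀ f : CI, f.ok G = true → Hd (val S) (f.cl G)) (hU : ∀ c ∈ units, Hd (val S) c) :
    Hd (val S) [797] :=
  stu_sound A A2 hU i1

theorem i2 : stu G units []
    [.initX 0 4 3 1]
    [38, 1418, 1422, 1428, 1430, 1436, 2176] 0x4402ce2cb2ca2c72c519118918418117c18f013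
    [[0,3], [4], [6], [8], [10], [2], [12], [1], [15], [17], [19], [21], [23], [25]]
    13 4 4 1
    (.leaf 0x8000001000000200000040000008000001000000008000000040000000800002000000400000080000010004001)
    [0x168] 14 14 = true := by
  decide +kernel

theorem j2 (A : ∀ f : CS, f.ok G = true → Hd (val S) (f.cl G))
    (A2 : ∀ f : CI, f.ok G = true → Hd (val S) (f.cl G)) (hU : ∀ c ∈ units, Hd (val S) c) :
    Hd (val S) [38, 1418, 1422, 1428, 1430, 1436, 2176] :=
  stu_sound A A2 hU i2

theorem i3 : stu G units []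
    [.initX 0 0 0 1]
    [0, 20, 34, 38, 1408, 1412, 1426, 2176] 0x4402c92c22c001301100a19118f18918418117c000
    [[0,3], [2], [4], [6], [8], [10], [12], [1], [15], [17], [19], [21], [23], [25], [27]]
    14 5 4 1
    (.leaf 0x800000040000002000000100000008000000400000020000000040000000040000002000000100000008000000400000020008001)
    [0x502] 15 15 = true := by
  decide +kernel

theorem j3 (A : ∀ f : CS, f.ok G = true → Hd (val S) (f.cl G))
    (A2 : ∀ f : CI, f.ok G = true → Hd (val S) (f.cl G)) (hU : ∀ c ∈ units, Hd (val S) c) :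
    Hd (val S) [0, 20, 34, 38, 1408, 1412, 1426, 2176] :=
  stu_sound A A2 hU i3

theorem i4 : stu G units []
    [.initX 0 4 3 1]
    [2, 12, 14, 20, 32, 38, 1408, 1426, 2176] 0x4402c92c001000a00700600119118918418117c18f013
    [[0,3], [4], [6], [8], [10], [2], [12], [15], [17], [19], [21], [23], [1], [25], [27], [29]]
    15 5 4 1
    (.leaf 0x800000010000000200000000008000100000002000000040000000800000010000000000040000000080000020000000400000008000000100010001)
    [0x5a6] 16 16 = true := by
  decide +kernel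

theorem j4 (A : ∀ f : CS, f.ok G = true → Hd (val S) (f.cl G))
    (A2 : ∀ f : CI, f.ok G = true → Hd (val S) (f.cl G)) (hU : ∀ c ∈ units, Hd (val S) c) :
    Hd (val S) [2, 12, 14, 20, 32, 38, 1408, 1426, 2176] :=
  stu_sound A A2 hU i4

theorem i5 : stu G units []
    [.initX 0 4 3 1]
    [38, 1416, 1418, 1424, 1428, 1436, 2176] 0x4402ce2ca2c82c52c419118918418117c18f013
    [[0,3], [4], [6], [8], [10], [2], [12], [1], [15], [17], [19], [21], [23], [25]]
    13 4 4 1
    (.leaf 0x8000001000000200000040000008000001000000008000000040000000800002000000400000080000010004001)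
    [0x168] 14 14 = true := by
  decide +kernel

theorem j5 (A : ∀ f : CS, f.ok G = true → Hd (val S) (f.cl G))
    (A2 : ∀ f : CI, f.ok G = true → Hd (val S) (f.cl G)) (hU : ∀ c ∈ units, Hd (val S) c) :
    Hd (val S) [38, 1416, 1418, 1424, 1428, 1436, 2176] :=
  stu_sound A A2 hU i5

theorem i6 : stu G units []
    [.initX 0 4 3 1]
    [20, 38, 1424, 1426, 1434, 2176] 0x4402cd2c92c800a19118918418117c18f013
    [[0,3], [4], [6], [8], [10], [2], [12], [15], [1], [17], [19], [21], [23]]
    12 4 4 1
    (.leaf 0x800000400000200000100000001000080000000040000002000020000010000008000004002001)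
    [0x196] 13 13 = true := by
  decide +kernel

theorem j6 (A : ∀ f : CS, f.ok G = true → Hd (val S) (f.cl G))
    (A2 : ∀ f : CI, f.ok G = true → Hd (val S) (f.cl G)) (hU : ∀ c ∈ units, Hd (val S) c) :
    Hd (val S) [20, 38, 1424, 1426, 1434, 2176] :=
  stu_sound A A2 hU i6

theorem i7 : stu G units []
    [.initX 0 1 1 1]
    [8, 10, 14, 1412, 1418, 1428, 2176] 0x4402ca2c52c200700419118f18918417c181005
    [[0,3], [4], [2], [6], [8], [10], [12], [15], [1], [17], [19], [21], [23], [25]]
    13 4 4 1
    (.leaf 0x8000001000000200000040000008000000020000400000000040000008000001000000200000020000010004001)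
    [0x139] 14 14 = true := by
  decide +kernel

theorem j7 (A : ∀ f : CS, f.ok G = true → Hd (val S) (f.cl G))
    (A2 : ∀ f : CI, f.ok G = true → Hd (val S) (f.cl G)) (hU : ∀ c ∈ units, Hd (val S) c) :
    Hd (val S) [8, 10, 14, 1412, 1418, 1428, 2176] :=
  stu_sound A A2 hU i7

theorem i8 : stu G units []
    [.initX 0 2 0 1]
    [16, 20, 34, 38, 1410, 1412, 1424, 2176] 0x4402c82c22c101301100a19118f18918117c184008
    [[0,3], [4], [6], [2], [8], [10], [12], [1], [15], [17], [19], [21], [23], [25], [27]]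
    14 5 4 1
    (.leaf 0x800000040000002000000100000008000000400000020000000040000000040000002000000100000002000000800000040008001)
    [0x504] 15 15 = true := by
  decide +kernel

theorem j8 (A : ∀ f : CS, f.ok G = true → Hd (val S) (f.cl G))
    (A2 : ∀ f : CI, f.ok G = true → Hd (val S) (f.cl G)) (hU : ∀ c ∈ units, Hd (val S) c) :
    Hd (val S) [16, 20, 34, 38, 1410, 1412, 1424, 2176] :=
  stu_sound A A2 hU i8

theorem i9 : stu G units []
    [.initX 0 4 3 1]
    [20, 24, 32, 38, 1410, 1412, 1424, 2176] 0x4402c82c22c101000c00a19118918418117c18f013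
    [[0,3], [4], [6], [8], [10], [2], [12], [15], [17], [19], [1], [21], [23], [25], [27]]
    14 5 4 1
    (.leaf 0x800000040000002000000100000000040000800000040000002000000000040000000200000200000010000000800000040008001)
    [0x566] 15 15 = true := by
  decide +kernel

theorem j9 (A : ∀ f : CS, f.ok G = true → Hd (val S) (f.cl G))
    (A2 : ∀ f : CI, f.ok G = true → Hd (val S) (f.cl G)) (hU : ∀ c ∈ units, Hd (val S) c) :
    Hd (val S) [20, 24, 32, 38, 1410, 1412, 1424, 2176] :=
  stu_sound A A2 hU i9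

theorem i10 : stu G units []
    [.initX 0 4 3 1]
    [14, 20, 38, 1408, 1416, 1440, 2176] 0x4402d02c42c000a00719118918418117c18f013
    [[0,3], [4], [6], [8], [10], [2], [12], [15], [17], [1], [19], [21], [23], [25]]
    13 4 4 1
    (.leaf 0x8000001000000200000040000000080002000000400000000040000000800002000000400000080000010004001)
    [0x16a] 14 14 = true := by
  decide +kernel

theorem j10 (A : ∀ f : CS, f.ok G = true → Hd (val S) (f.cl G))
    (A2 : ∀ f : CI, f.ok G = true → Hd (val S) (f.cl G)) (hU : ∀ c ∈ units, Hd (val S) c) :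
    Hd (val S) [14, 20, 38, 1408, 1416, 1440, 2176] :=
  stu_sound A A2 hU i10

theorem i11 : stu G units []
    [.initX 0 2 0 1]
    [1105, 16] 0x22819118f18918117c184008
    [[0,3], [4], [6], [2], [8], [10], [12], [14], [1]]
    8 4 4 1
    (.leaf 0x10000800040002000100002000800040201)
    [0x149] 9 9 = true := by
  decide +kernel

theorem j11 (A : ∀ f : CS, f.ok G = true → Hd (val S) (f.cl G))
    (A2 : ∀ f : CI, f.ok G = true → Hd (val S) (f.cl G)) (hU : ∀ c ∈ units, Hd (val S) c) :
    Hd (val S) [1105, 16] :=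
  stu_sound A A2 hU i11

theorem i12 : stu G units [.some 1 0, .some 1 1, .some 1 2, .legal 1 0 2, .legal 1 1 1, .legal2 0 1 0 0 3, .legal2 0 1 1 1 3, .legal2 0 1 2 0 3]
    [.initX 0 0 0 1, .initX 0 1 1 1, .initX 0 2 0 1, .initX 1 1 0 0]
    [1105, 1408, 1410, 1424, 1428, 2176] 0x22819118f18944018418117c0080050002cb2ca2c92c82c72c62c52c42c32c22c12c0
    [[0,2,4,6], [8,10,12,14], [16,18,20,22], [5,13], [11,19], [25,7], [27,15], [29,23], [24,31], [26,33], [28,35], [9,36], [30], [32], [34], [38], [40], [42], [44], [1], [3], [17], [21], [37]]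
    23 6 45 1
    (.leaf 0x1000000000000001000004000000000000000200000080000000000000000040010000000000000000400000010000000000000002000000010000000000000010000800000000000020000000000020000000000001000000000002000000000004000000000008000000000010000000000020000000000020000000000040000000000080000000201000001000000400002000000800004000001000009000000000010400000000020100000000011000000000008800000000000000f000000000003c00000000000f)
    [0x62400c8c009c8220058400de5970047c005a5150087402cf0076c028e00664024d] 24 36 = true := by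
  decide +kernel

theorem j12 (A : ∀ f : CS, f.ok G = true → Hd (val S) (f.cl G))
    (A2 : ∀ f : CI, f.ok G = true → Hd (val S) (f.cl G)) (hU : ∀ c ∈ units, Hd (val S) c) :
    Hd (val S) [1105, 1408, 1410, 1424, 1428, 2176] :=
  stu_sound A A2 hU i12

theorem i13 : stu G units [.some 1 0, .some 1 1, .legal 1 0 1, .legal2 0 1 0 0 3, .legal2 0 1 1 1 3]
    [.initX 0 0 0 1, .initX 0 1 1 1, .initX 1 1 0 0]
    [1105, 1408, 1412, 1420, 2176] 0x22819118f18918444018117c0050002c72c62c52c42c32c22c12c0
    [[0,2,4,6], [8,10,12,14], [3,11], [17,7], [19,15], [16,21], [18,23], [9,24], [20], [22], [26], [28], [30], [32], [34], [1], [5], [13], [25]]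
    18 5 29 1
    (.leaf 0x800008000000000010000000002000200000000000020000040000004000000000100000000010000000004000000002000000001000000000800000000400000000200000000080000000040000040100002000020001000010000a0000000042000000008800000000000f000000000f)
    [0x263400c23900ee032402a4ac02d40750113] 19 26 = true := by
  decide +kernel

theorem j13 (A : ∀ f : CS, f.ok G = true → Hd (val S) (f.cl G))
    (A2 : ∀ f : CI, f.ok G = true → Hd (val S) (f.cl G)) (hU : ∀ c ∈ units, Hd (val S) c) :
    Hd (val S) [1105, 1408, 1412, 1420, 2176] :=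
  stu_sound A A2 hU i13

theorem i14 : stu G units []
    [.initX 0 0 0 1]
    [0, 2, 1408, 1418, 1428, 1430, 1446] 0x2d32cb2ca2c52c000119118f18918418117c000
    [[0,3], [2], [4], [6], [8], [10], [12], [1], [15], [17], [19], [21], [23], [25]]
    13 4 4 1
    (.leaf 0x8000001000000200000040000008000001000000008000000040000008000001000000200000040000008004001)
    [0x128] 14 14 = true := by
  decide +kernel

theorem j14 (A : ∀ f : CS, f.ok G = true → Hd (val S) (f.cl G))
    (A2 : ∀ f : CI, f.ok G = true → Hd (val S) (f.cl G)) (hU : ∀ c ∈ units, Hd (val S) c) :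
    Hd (val S) [0, 2, 1408, 1418, 1428, 1430, 1446] :=
  stu_sound A A2 hU i14

theorem i15 : stu G units []
    [.initX 0 1 1 1]
    [8, 10, 14, 1412, 1434, 2516] 0x4ea2cd2c200700419118f18918417c181005
    [[0,3], [4], [2], [6], [8], [10], [12], [15], [1], [17], [19], [21], [23]]
    12 4 4 1
    (.leaf 0x800000400000200000100000001000080000000040000020000010000008000002000004002001)
    [0x193] 13 13 = true := by
  decide +kernel

theorem j15 (A : ∀ f : CS, f.ok G = true → Hd (val S) (f.cl G))
    (A2 : ∀ f : CI, f.ok G = true → Hd (val S) (f.cl G)) (hU : ∀ c ∈ units, Hd (val S) c) :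
    Hd (val S) [8, 10, 14, 1412, 1434, 2516] :=
  stu_sound A A2 hU i15

theorem i16 : stu G units []
    [.initX 0 1 1 1]
    [8, 10, 14, 1418, 1428, 2176, 2290] 0x4794402ca2c500700419118f18918417c181005
    [[0,3], [4], [2], [6], [8], [10], [12], [15], [1], [17], [19], [21], [23], [25]]
    13 4 4 1
    (.leaf 0x8000001000000200000040000008000000020000400000000040000008000001000000200000020000010004001)
    [0x139] 14 14 = true := by
  decide +kernel

theorem j16 (A : ∀ f : CS, f.ok G = true → Hd (val S) (f.cl G))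
    (A2 : ∀ f : CI, f.ok G = true → Hd (val S) (f.cl G)) (hU : ∀ c ∈ units, Hd (val S) c) :
    Hd (val S) [8, 10, 14, 1418, 1428, 2176, 2290] :=
  stu_sound A A2 hU i16

theorem i17 : stu G units []
    [.initX 0 1 1 1]
    [8, 10, 1410, 1412, 2176, 2290] 0x4794402c22c100419118f18918417c181005
    [[0,3], [4], [2], [6], [8], [10], [12], [15], [1], [17], [19], [21], [23]]
    12 4 4 1
    (.leaf 0x800000400000200000100000001000080000000040000020000010000008000002000004002001)
    [0x193] 13 13 = true := by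
  decide +kernel

theorem j17 (A : ∀ f : CS, f.ok G = true → Hd (val S) (f.cl G))
    (A2 : ∀ f : CI, f.ok G = true → Hd (val S) (f.cl G)) (hU : ∀ c ∈ units, Hd (val S) c) :
    Hd (val S) [8, 10, 1410, 1412, 2176, 2290] :=
  stu_sound A A2 hU i17

theorem i18 : stu G units []
    [.initX 0 4 3 1]
    [14, 20, 38, 1410, 1412, 1440, 2516] 0x4ea2d02c22c100a00719118918418117c18f013
    [[0,3], [4], [6], [8], [10], [2], [12], [15], [17], [1], [19], [21], [23], [25]]
    13 4 4 1
    (.leaf 0x8000001000000200000040000000080002000000400000000040000000800002000000400000080000010004001)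
    [0x16a] 14 14 = true := by
  decide +kernel

theorem j18 (A : ∀ f : CS, f.ok G = true → Hd (val S) (f.cl G))
    (A2 : ∀ f : CI, f.ok G = true → Hd (val S) (f.cl G)) (hU : ∀ c ∈ units, Hd (val S) c) :
    Hd (val S) [14, 20, 38, 1410, 1412, 1440, 2516] :=
  stu_sound A A2 hU i18

theorem i19 : stu G units []
    [.initX 0 4 3 1]
    [14, 20, 38, 1416, 1428, 1450, 1811, 2516] 0x4ea3892d52ca2c400a00719118918418117c18f013
    [[0,3], [4], [6], [8], [10], [2], [12], [15], [17], [1], [19], [21], [23], [24], [27]]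
    14 5 4 1
    (.leaf 0x800000000010002000000100000008000000004000040000002000000000040000000200000200000010000000800000040008001)
    [0x546] 15 15 = true := by
  decide +kernel

theorem j19 (A : ∀ f : CS, f.ok G = true → Hd (val S) (f.cl G))
    (A2 : ∀ f : CI, f.ok G = true → Hd (val S) (f.cl G)) (hU : ∀ c ∈ units, Hd (val S) c) :
    Hd (val S) [14, 20, 38, 1416, 1428, 1450, 1811, 2516] :=
  stu_sound A A2 hU i19

theorem i20 : stu G units []
    [.initX 0 4 3 1]
    [14, 20, 38, 1416, 1440, 2516] 0x4ea2d02c400a00719118918418117c18f013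
    [[0,3], [4], [6], [8], [10], [2], [12], [15], [17], [1], [19], [21], [23]]
    12 4 4 1
    (.leaf 0x800000400000200000001000100000080000000040000002000020000010000008000004002001)
    [0x1a6] 13 13 = true := by
  decide +kernel

theorem j20 (A : ∀ f : CS, f.ok G = true → Hd (val S) (f.cl G))
    (A2 : ∀ f : CI, f.ok G = true → Hd (val S) (f.cl G)) (hU : ∀ c ∈ units, Hd (val S) c) :
    Hd (val S) [14, 20, 38, 1416, 1440, 2516] :=
  stu_sound A A2 hU i20

theorem i21 : stu G units []
    [.initX 0 4 3 1]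
    [14, 38, 1410, 1412, 1434, 1436, 2516] 0x4ea2ce2cd2c22c100719118918418117c18f013
    [[0,3], [4], [6], [8], [10], [2], [12], [15], [1], [17], [19], [21], [23], [25]]
    13 4 4 1
    (.leaf 0x8000001000000200000040000008000000020000400000000040000000800002000000400000080000010004001)
    [0x169] 14 14 = true := by
  decide +kernel

theorem j21 (A : ∀ f : CS, f.ok G = true → Hd (val S) (f.cl G))
    (A2 : ∀ f : CI, f.ok G = true → Hd (val S) (f.cl G)) (hU : ∀ c ∈ units, Hd (val S) c) :
    Hd (val S) [14, 38, 1410, 1412, 1434, 1436, 2516] :=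
  stu_sound A A2 hU i21

theorem i22 : stu G units []
    [.initX 0 2 0 1]
    [16, 18, 40, 42, 1426, 1450, 2517, 2308] 0x4824ea2d52c901501400919118f18918117c184008
    [[0,3], [4], [6], [2], [8], [10], [12], [1], [15], [17], [19], [21], [23], [24], [27]]
    14 5 4 1
    (.leaf 0x800000000010002000000100000008000000400000020000000040000000040000002000000100000002000000800000040008001)
    [0x504] 15 15 = true := by
  decide +kernel

theorem j22 (A : ∀ f : CS, f.ok G = true → Hd (val S) (f.cl G))
    (A2 : ∀ f : CI, f.ok G = true → Hd (val S) (f.cl G)) (hU : ∀ c ∈ units, Hd (val S) c) :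
    Hd (val S) [16, 18, 40, 42, 1426, 1450, 2517, 2308] :=
  stu_sound A A2 hU i22

theorem i23 : stu G units []
    [.initX 0 4 3 1]
    [20, 38, 1410, 1412, 1422, 1424, 1434, 1446] 0x2d32cd2c82c72c22c100a19118918418117c18f013
    [[0,3], [4], [6], [8], [10], [2], [12], [15], [1], [17], [19], [21], [23], [25], [27]]
    14 5 4 1
    (.leaf 0x800000040000002000000100000008000000400000000400002000000000040000000200000200000010000000800000040008001)
    [0x526] 15 15 = true := by
  decide +kernel

theorem j23 (A : ∀ f : CS, f.ok G = true → Hd (val S) (f.cl G))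
    (A2 : ∀ f : CI, f.ok G = true → Hd (val S) (f.cl G)) (hU : ∀ c ∈ units, Hd (val S) c) :
    Hd (val S) [20, 38, 1410, 1412, 1422, 1424, 1434, 1446] :=
  stu_sound A A2 hU i23

theorem i24 : stu G units []
    [.initX 0 3 1 1]
    [24, 26, 1410, 1422, 1432] 0x2cc2c72c100c19118f18418117c18900d
    [[0,3], [4], [6], [8], [2], [10], [12], [15], [1], [17], [19], [21]]
    11 4 4 1
    (.leaf 0x800001000002000000080010000000040000080000020000400000800001001001)
    [0x159] 12 12 = true := by
  decide +kernel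

theorem j24 (A : ∀ f : CS, f.ok G = true → Hd (val S) (f.cl G))
    (A2 : ∀ f : CI, f.ok G = true → Hd (val S) (f.cl G)) (hU : ∀ c ∈ units, Hd (val S) c) :
    Hd (val S) [24, 26, 1410, 1422, 1432] :=
  stu_sound A A2 hU i24

theorem i25 : stu G units []
    [.initX 0 4 3 1]
    [32, 34, 38, 1408, 1442, 1452, 2176] 0x4402d62d12c001101019118918418117c18f013
    [[0,3], [4], [6], [8], [10], [2], [12], [15], [17], [1], [19], [21], [23], [25]]
    13 4 4 1
    (.leaf 0x8000001000000200000040000000080002000000400000000040000000800002000000400000080000010004001)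
    [0x16a] 14 14 = true := by
  decide +kernel

theorem j25 (A : ∀ f : CS, f.ok G = true → Hd (val S) (f.cl G))
    (A2 : ∀ f : CI, f.ok G = true → Hd (val S) (f.cl G)) (hU : ∀ c ∈ units, Hd (val S) c) :
    Hd (val S) [32, 34, 38, 1408, 1442, 1452, 2176] :=
  stu_sound A A2 hU i25

theorem i26 : stu G units []
    [.initX 0 4 3 1]
    [38, 44, 396, 1440, 1804, 1894] 0x3b33862d00c601619118918418117c18f013
    [[0,3], [4], [6], [8], [10], [2], [12], [1], [15], [17], [19], [21], [23]]
    12 4 4 1
    (.leaf 0x800000400000200000100000080000001000000040000002000020000010000008000004002001)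
    [0x186] 13 13 = true := by
  decide +kernel

theorem j26 (A : ∀ f : CS, f.ok G = true → Hd (val S) (f.cl G))
    (A2 : ∀ f : CI, f.ok G = true → Hd (val S) (f.cl G)) (hU : ∀ c ∈ units, Hd (val S) c) :
    Hd (val S) [38, 44, 396, 1440, 1804, 1894] :=
  stu_sound A A2 hU i26

theorem i27 : stu G units []
    [.initX 0 4 3 1]
    [38, 44, 397, 1440, 1822, 1876] 0x3aa38f2d00c601619118918418117c18f013
    [[0,3], [4], [6], [8], [10], [2], [12], [1], [15], [16], [19], [21], [23]]
    12 4 4 1
    (.leaf 0x800000400000200000000100080000001000000040000002000020000010000008000004002001)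
    [0x186] 13 13 = true := by
  decide +kernel

theorem j27 (A : ∀ f : CS, f.ok G = true → Hd (val S) (f.cl G))
    (A2 : ∀ f : CI, f.ok G = true → Hd (val S) (f.cl G)) (hU : ∀ c ∈ units, Hd (val S) c) :
    Hd (val S) [38, 44, 397, 1440, 1822, 1876] :=
  stu_sound A A2 hU i27

theorem i28 : stu G units []
    [.initX 0 4 3 1]
    [38, 44, 415, 1408, 1804, 1937, 1990, 2516] 0x4ea3e33c83862c00cf01619118918418117c18f013
    [[0,3], [4], [6], [8], [10], [2], [12], [1], [15], [16], [19], [21], [22], [25], [27]]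
    14 5 4 1
    (.leaf 0x800000040000000000800100000008000000000100020000000040000000040000000200000200000010000000800000040008001)
    [0x506] 15 15 = true := by
  decide +kernel

theorem j28 (A : ∀ f : CS, f.ok G = true → Hd (val S) (f.cl G))
    (A2 : ∀ f : CI, f.ok G = true → Hd (val S) (f.cl G)) (hU : ∀ c ∈ units, Hd (val S) c) :
    Hd (val S) [38, 44, 415, 1408, 1804, 1937, 1990, 2516] :=
  stu_sound A A2 hU i28

theorem i29 : stu G units []
    [.initX 0 4 3 1]
    [38, 44, 415, 1436, 1440, 1452, 1865, 2516] 0x4ea3a42d62d02ce0cf01619118918418117c18f013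
    [[0,3], [4], [6], [8], [10], [2], [12], [1], [15], [16], [19], [21], [23], [24], [27]]
    14 5 4 1
    (.leaf 0x800000000010002000000100000008000000000100020000000040000000040000000200000200000010000000800000040008001)
    [0x506] 15 15 = true := by
  decide +kernel

theorem j29 (A : ∀ f : CS, f.ok G = true → Hd (val S) (f.cl G))
    (A2 : ∀ f : CI, f.ok G = true → Hd (val S) (f.cl G)) (hU : ∀ c ∈ units, Hd (val S) c) :
    Hd (val S) [38, 44, 415, 1436, 1440, 1452, 1865, 2516] :=
  stu_sound A A2 hU i29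

theorem i30 : stu G units []
    [.initX 0 4 3 1]
    [38, 44, 1434, 1436, 1452, 1793, 2516] 0x4ea3802d62ce2cd01619118918418117c18f013
    [[0,3], [4], [6], [8], [10], [2], [12], [1], [15], [17], [19], [21], [22], [25]]
    13 4 4 1
    (.leaf 0x8000000000800200000040000008000001000000008000000040000000800002000000400000080000010004001)
    [0x168] 14 14 = true := by
  decide +kernel

theorem j30 (A : ∀ f : CS, f.ok G = true → Hd (val S) (f.cl G))
    (A2 : ∀ f : CI, f.ok G = true → Hd (val S) (f.cl G)) (hU : ∀ c ∈ units, Hd (val S) c) :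
    Hd (val S) [38, 44, 1434, 1436, 1452, 1793, 2516] :=
  stu_sound A A2 hU i30

theorem i31 : stu G units []
    [.initX 0 4 3 1]
    [38, 44, 1436, 1440, 1452, 1936, 2068, 2516] 0x4ea40a3c82d62d02ce01619118918418117c18f013
    [[0,3], [4], [6], [8], [10], [2], [12], [1], [15], [17], [19], [21], [23], [25], [27]]
    14 5 4 1
    (.leaf 0x800000040000002000000100000008000000400000020000000040000000040000000200000200000010000000800000040008001)
    [0x506] 15 15 = true := by
  decide +kernel

theorem j31 (A : ∀ f : CS, f.ok G = true → Hd (val S) (f.cl G))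
    (A2 : ∀ f : CI, f.ok G = true → Hd (val S) (f.cl G)) (hU : ∀ c ∈ units, Hd (val S) c) :
    Hd (val S) [38, 44, 1436, 1440, 1452, 1936, 2068, 2516] :=
  stu_sound A A2 hU i31

theorem i32 : stu G units []
    [.initX 0 4 3 1]
    [38, 44, 1440, 1949, 2003] 0x3e93ce2d001619118918418117c18f013
    [[0,3], [4], [6], [8], [10], [2], [12], [1], [15], [17], [18], [20]]
    11 4 4 1
    (.leaf 0x1000002002000004000000200000040000008000200000400000800001001001)
    [0x168] 12 12 = true := by
  decide +kernel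

theorem j32 (A : ∀ f : CS, f.ok G = true → Hd (val S) (f.cl G))
    (A2 : ∀ f : CI, f.ok G = true → Hd (val S) (f.cl G)) (hU : ∀ c ∈ units, Hd (val S) c) :
    Hd (val S) [38, 44, 1440, 1949, 2003] :=
  stu_sound A A2 hU i32

theorem i33 : stu G units []
    [.initX 0 4 3 1]
    [38, 44, 1440, 1967, 1985] 0x3e03d72d001619118918418117c18f013
    [[0,3], [4], [6], [8], [10], [2], [12], [1], [15], [17], [18], [20]]
    11 4 4 1
    (.leaf 0x1000002002000004000000200000040000008000200000400000800001001001)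
    [0x168] 12 12 = true := by
  decide +kernel

theorem j33 (A : ∀ f : CS, f.ok G = true → Hd (val S) (f.cl G))
    (A2 : ∀ f : CI, f.ok G = true → Hd (val S) (f.cl G)) (hU : ∀ c ∈ units, Hd (val S) c) :
    Hd (val S) [38, 44, 1440, 1967, 1985] :=
  stu_sound A A2 hU i33

theorem i34 : stu G units []
    [.initX 0 4 3 1]
    [38, 1408, 1412, 1436, 1452, 1454, 1793, 2516] 0x4ea3802d72d62ce2c22c019118918418117c18f013
    [[0,3], [4], [6], [8], [10], [2], [12], [1], [15], [17], [19], [21], [23], [24], [27]]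
    14 5 4 1
    (.leaf 0x800000000010002000000100000008000000400000020000000040000000040000000200000200000010000000800000040008001)
    [0x506] 15 15 = true := by
  decide +kernel

theorem j34 (A : ∀ f : CS, f.ok G = true → Hd (val S) (f.cl G))
    (A2 : ∀ f : CI, f.ok G = true → Hd (val S) (f.cl G)) (hU : ∀ c ∈ units, Hd (val S) c) :
    Hd (val S) [38, 1408, 1412, 1436, 1452, 1454, 1793, 2516] :=
  stu_sound A A2 hU i34

theorem i35 : stu G units []
    [.initX 0 4 3 1]
    [38, 1408, 1412, 1436, 1452, 1454, 1936, 2062, 2516] 0x4ea4073c82d72d62ce2c22c019118918418117c18f013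
    [[0,3], [4], [6], [8], [10], [2], [12], [1], [15], [17], [19], [21], [23], [25], [27], [29]]
    15 5 4 1
    (.leaf 0x800000010000000200000004000000080000001000000020000000400000000200000000040000000080000020000000400000008000000100010001)
    [0x506] 16 16 = true := by
  decide +kernel

theorem j35 (A : ∀ f : CS, f.ok G = true → Hd (val S) (f.cl G))
    (A2 : ∀ f : CI, f.ok G = true → Hd (val S) (f.cl G)) (hU : ∀ c ∈ units, Hd (val S) c) :
    Hd (val S) [38, 1408, 1412, 1436, 1452, 1454, 1936, 2062, 2516] :=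
  stu_sound A A2 hU i35

theorem i36 : stu G units []
    [.initX 0 4 3 1]
    [38, 1430, 1440, 2176, 2290] 0x4794402d02cb19118918418117c18f013
    [[0,3], [4], [6], [8], [10], [2], [12], [1], [15], [17], [19], [21]]
    11 4 4 1
    (.leaf 0x800001000002000004000000200000040000008000200000400000800001001001)
    [0x168] 12 12 = true := by
  decide +kernel

theorem j36 (A : ∀ f : CS, f.ok G = true → Hd (val S) (f.cl G))
    (A2 : ∀ f : CI, f.ok G = true → Hd (val S) (f.cl G)) (hU : ∀ c ∈ units, Hd (val S) c) :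
    Hd (val S) [38, 1430, 1440, 2176, 2290] :=
  stu_sound A A2 hU i36

theorem i37 : stu G units []
    [.initX 0 5 1 1]
    [40, 42, 1430, 1450, 2176] 0x4402d52cb01418f18918418117c191015
    [[0,3], [4], [6], [8], [10], [12], [2], [15], [1], [17], [19], [21]]
    11 4 4 1
    (.leaf 0x800001000002000000080010000000002000100000200000400000800001001001)
    [0x179] 12 12 = true := by
  decide +kernel

theorem j37 (A : ∀ f : CS, f.ok G = true → Hd (val S) (f.cl G))
    (A2 : ∀ f : CI, f.ok G = true → Hd (val S) (f.cl G)) (hU : ∀ c ∈ units, Hd (val S) c) :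
    Hd (val S) [40, 42, 1430, 1450, 2176] :=
  stu_sound A A2 hU i37

theorem i38 : stu G units [.some 1 0, .some 1 1, .legal 1 0 1, .legal2 0 1 0 0 3, .legal2 0 1 1 1 3]
    [.initX 0 0 0 1, .initX 0 1 1 1, .initX 1 1 0 0]
    [1408, 1412, 1420, 1430, 1448, 2176, 2290] 0x4792d42cb19118f18918444018117c0050002c72c62c52c42c32c22c12c0
    [[0,2,4,6], [8,10,12,14], [3,11], [17,7], [19,15], [16,21], [18,23], [9,24], [20], [22], [26], [28], [30], [32], [1], [5], [13], [35], [37], [25], [39]]
    20 5 29 1
    (.leaf 0x10000000000000000800002000000000000020000800000000000002000001000000800000000001000000004000000000200000000000040000000000400000000010000000000100000000008000000000400000000020000000000800000000040000010010000080000200004000010000280000000010800000000220000000000000f0000000000f)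
    [0x3712026c0183f401e402b47002dc0750114] 21 28 = true := by
  decide +kernel

theorem j38 (A : ∀ f : CS, f.ok G = true → Hd (val S) (f.cl G))
    (A2 : ∀ f : CI, f.ok G = true → Hd (val S) (f.cl G)) (hU : ∀ c ∈ units, Hd (val S) c) :
    Hd (val S) [1408, 1412, 1420, 1430, 1448, 2176, 2290] :=
  stu_sound A A2 hU i38

theorem i39 : stu G units [.some 1 1, .legal2 0 1 1 1 3]
    [.initX 0 1 1 1, .initX 1 1 0 0]
    [1418, 1420, 2176, 2516] 0x4ea19118f18918417c4401810052c72c62c52c4
    [[0,2,4,6], [9,7], [8,11], [1,12], [14], [10], [16], [18], [20], [22], [3], [5], [13], [25]]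
    13 5 17 1
    (.leaf 0x100000001004000000001080000000800000020000004000000200000040000008000001000000080000080000810004001000c000000000f)
    [0x6c804880305b00278066] 14 18 = true := by
  decide +kernel

theorem j39 (A : ∀ f : CS, f.ok G = true → Hd (val S) (f.cl G))
    (A2 : ∀ f : CI, f.ok G = true → Hd (val S) (f.cl G)) (hU : ∀ c ∈ units, Hd (val S) c) :
    Hd (val S) [1418, 1420, 2176, 2516] :=
  stu_sound A A2 hU i39

/-- clauses which hold at the start -/
def E : List (List ℕ) :=
  [[793],
   [797],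
   [38, 1418, 1422, 1428, 1430, 1436, 2176],
   [0, 20, 34, 38, 1408, 1412, 1426, 2176],
   [2, 12, 14, 20, 32, 38, 1408, 1426, 2176],
   [38, 1416, 1418, 1424, 1428, 1436, 2176],
   [20, 38, 1424, 1426, 1434, 2176],
   [8, 10, 14, 1412, 1418, 1428, 2176],
   [16, 20, 34, 38, 1410, 1412, 1424, 2176],
   [20, 24, 32, 38, 1410, 1412, 1424, 2176],
   [14, 20, 38, 1408, 1416, 1440, 2176],
   [1105, 16],
   [1105, 1408, 1410, 1424, 1428, 2176],
   [1105, 1408, 1412, 1420, 2176],
   [0, 2, 1408, 1418, 1428, 1430, 1446],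
   [8, 10, 14, 1412, 1434, 2516],
   [8, 10, 14, 1418, 1428, 2176, 2290],
   [8, 10, 1410, 1412, 2176, 2290],
   [14, 20, 38, 1410, 1412, 1440, 2516],
   [14, 20, 38, 1416, 1428, 1450, 1811, 2516],
   [14, 20, 38, 1416, 1440, 2516],
   [14, 38, 1410, 1412, 1434, 1436, 2516],
   [16, 18, 40, 42, 1426, 1450, 2517, 2308],
   [20, 38, 1410, 1412, 1422, 1424, 1434, 1446],
   [24, 26, 1410, 1422, 1432],
   [32, 34, 38, 1408, 1442, 1452, 2176],
   [38, 44, 396, 1440, 1804, 1894],
   [38, 44, 397, 1440, 1822, 1876],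
   [38, 44, 415, 1408, 1804, 1937, 1990, 2516],
   [38, 44, 415, 1436, 1440, 1452, 1865, 2516],
   [38, 44, 1434, 1436, 1452, 1793, 2516],
   [38, 44, 1436, 1440, 1452, 1936, 2068, 2516],
   [38, 44, 1440, 1949, 2003],
   [38, 44, 1440, 1967, 1985],
   [38, 1408, 1412, 1436, 1452, 1454, 1793, 2516],
   [38, 1408, 1412, 1436, 1452, 1454, 1936, 2062, 2516],
   [38, 1430, 1440, 2176, 2290],
   [40, 42, 1430, 1450, 2176],
   [1408, 1412, 1420, 1430, 1448, 2176, 2290],
   [1418, 1420, 2176, 2516]]

theorem ini_ok : ini G [.first]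
    (units ++ E) B = true := by
  decide +kernel

theorem hE (A : ∀ f : CS, f.ok G = true → Hd (val S) (f.cl G))
    (A2 : ∀ f : CI, f.ok G = true → Hd (val S) (f.cl G)) (hU : ∀ c ∈ units, Hd (val S) c) : ∀ e ∈ E, Hd (val S) e :=
  List.forall_mem_cons.2 ⟨j0 A A2 hU, List.forall_mem_cons.2 ⟨j1 A A2 hU, List.forall_mem_cons.2 ⟨j2 A A2 hU, List.forall_mem_cons.2 ⟨j3 A A2 hU, List.forall_mem_cons.2 ⟨j4 A A2 hU, List.forall_mem_cons.2 ⟨j5 A A2 hU, List.forall_mem_cons.2 ⟨j6 A A2 hU, List.forall_mem_cons.2 ⟨j7 A A2 hU, List.forall_mem_cons.2 ⟨j8 A A2 hU, List.forall_mem_cons.2 ⟨j9 A A2 hU, List.forall_mem_cons.2 ⟨j10 A A2 hU, List.forall_mem_cons.2 ⟨j11 A A2 hU, List.forall_mem_cons.2 ⟨j12 A A2 hU, List.forall_mem_cons.2 ⟨j13 A A2 hU, List.forall_mem_cons.2 ⟨j14 A A2 hU, List.forall_mem_cons.2 ⟨j15 A A2 hU, List.forall_mem_cons.2 ⟨j16 A A2 hU, List.forall_mem_cons.2 ⟨j17 A A2 hU, List.forall_mem_cons.2 ⟨j18 A A2 hU, List.forall_mem_cons.2 ⟨j19 A A2 hU, List.forall_mem_cons.2 ⟨j20 A A2 hU, List.forall_mem_cons.2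 ⟨j21 A A2 hU, List.forall_mem_cons.2 ⟨j22 A A2 hU, List.forall_mem_cons.2 ⟨j23 A A2 hU, List.forall_mem_cons.2 ⟨j24 A A2 hU, List.forall_mem_cons.2 ⟨j25 A A2 hU, List.forall_mem_cons.2 ⟨j26 A A2 hU, List.forall_mem_cons.2 ⟨j27 A A2 hU, List.forall_mem_cons.2 ⟨j28 A A2 hU, List.forall_mem_cons.2 ⟨j29 A A2 hU, List.forall_mem_cons.2 ⟨j30 A A2 hU, List.forall_mem_cons.2 ⟨j31 A A2 hU, List.forall_mem_cons.2 ⟨j32 A A2 hU, List.forall_mem_cons.2 ⟨j33 A A2 hU, List.forall_mem_cons.2 ⟨j34 A A2 hU, List.forall_mem_cons.2 ⟨j35 A A2 hU, List.forall_mem_cons.2 ⟨j36 A A2 hU, List.forall_mem_cons.2 ⟨j37 A A2 hU, List.forall_mem_cons.2 ⟨j38 A A2 hU, List.forall_mem_cons.2 ⟨j39 A A2 hU, (by simp)⟩⟩⟩⟩⟩⟩⟩⟩⟩⟩⟩⟩⟩⟩⟩⟩⟩⟩⟩⟩⟩⟩⟩⟩⟩⟩⟩⟩⟩⟩⟩⟩⟩⟩⟩⟩⟩⟩⟩⟩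

/-- **start** -/
theorem start0 (A : Ax G S) (A2 : ∀ f : CI, f.ok G = true → Hd (val S) (f.cl G))
    (hU : ∀ e ∈ units, Hd (val S) e) :
    Hds (val S) B :=
  ini_sound A2 (fun e he => (List.mem_append.1 he).elim (hU e) (hE A.s A2 hU e)) ini_ok

/-- **after the first instant** -/
theorem start (A : Ax G S) (A2 : ∀ f : CI, f.ok G = true → Hd (val S) (f.cl G))
    (hX : ∀ c ∈ ex, Hd (val S) c) (hU : ∀ e ∈ units, Hd (val S) e) : ∀ c ∈ inv, Hd (val S) (c.map nxl) :=
  List.forall_mem_cons.2 ⟨f1 A, hns_flat.1 (stepB A (hx2 hX (start0 A A2 hU)))⟩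

end

end Vale.Agent.P032.R2.H805.S2m.W3
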