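import Vale.Agent.P032.R2.H137.Roots
import Vale.Agent.P032.R2.H805.Step

/-!
# P032: root S2m, start word 3: the invariant
-/

set_option autoImplicit false
set_option maxRecDepth 100000

namespace Vale.Agent.P032.R2.H805.S2m.W3

open Vale.Agent.P032.R2.H741.Tp
open Vale.Agent.P032.R2.H805.Step

/-- the rings -/
abbrev G : RD := Vale.Agent.P032.R2.H137.rdS2n

/-- block 0 of the invariant -/
def b0 : List (List ℕ) :=
  [[776],
   [786],
   [793],
   [797],
   [802],
   [38, 1418, 1422, 1428, 1430, 1436, 2176],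
   [0, 20, 34, 38, 1408, 1412, 1426, 2176],
   [2, 12, 14, 20, 32, 38, 1408, 1426, 2176],
   [38, 1416, 1418, 1424, 1428, 1436, 2176],
   [20, 38, 1424, 1426, 1434, 2176],
   [8, 10, 14, 1412, 1418, 1428, 2176],
   [16, 20, 34, 38, 1410, 1412, 1424, 2176],
   [20, 24, 32, 38, 1410, 1412, 1424, 2176],
   [14, 20, 38, 1408, 1416, 1440, 2176],
   [1104, 14, 20, 396, 1410, 1412, 1428, 1811, 2516],
   [1104, 14, 20, 396, 1410, 1412, 1936, 1972, 2042, 2516],
   [1104, 14, 20, 396, 1416, 1804, 1894],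
   [1104, 14, 20, 397, 1416, 1822, 1876],
   [1104, 14, 20, 415, 1412, 1416, 1428, 1865, 2516],
   [1104, 14, 20, 1412, 1416, 1428, 1883, 2516],
   [1104, 14, 397, 1412, 1416, 1428, 1430, 1793, 2516],
   [1104, 20, 1410, 1412, 2176, 2290],
   [1104, 396, 414],
   [1104, 396, 600],
   [1104, 396, 632],
   [1104, 396, 2014],
   [1104, 396, 2032],
   [1104, 396, 2176],
   [1104, 397, 456],
   [1104, 397, 606],
   [1104, 397, 626],
   [1104, 397, 2008]]

/-- block 1 of the invariant -/
def b1 : List (List ℕ) :=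
  [[1104, 397, 2038],
   [1104, 415, 474],
   [1104, 1408, 2176, 2516],
   [1104, 1408, 2176, 2288],
   [1104, 1430, 2176, 2516],
   [1104, 1430, 2517, 2308],
   [1104, 1882, 2176],
   [1104, 1937, 1942],
   [1104, 1942, 1960],
   [1104, 1942, 2066],
   [1104, 1942, 2072],
   [1104, 1943, 1996],
   [1104, 1943, 2060],
   [1104, 1943, 2078],
   [1104, 1961, 1978],
   [1104, 2010, 2176],
   [1104, 2040, 2176],
   [1104, 2517, 2306],
   [1104, 2522],
   [1105, 16],
   [1105, 1408, 1410, 1424, 1428, 2176],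
   [1105, 1408, 1412, 1420, 2176],
   [0, 2, 1408, 1418, 1428, 1430, 1446],
   [8, 10, 14, 1412, 1434, 2516],
   [8, 10, 14, 1418, 1428, 2176, 2290],
   [8, 10, 1410, 1412, 2176, 2290],
   [14, 20, 38, 1410, 1412, 1440, 2516],
   [14, 20, 38, 1416, 1428, 1450, 1811, 2516],
   [14, 20, 38, 1416, 1440, 2516],
   [14, 38, 1410, 1412, 1434, 1436, 2516],
   [16, 18, 40, 42, 1426, 1450, 2517, 2308],
   [20, 38, 1410, 1412, 1422, 1424, 1434, 1446]]

/-- block 2 of the invariant -/
def b2 : List (List ℕ) :=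
  [[24, 26, 1410, 1422, 1432],
   [32, 34, 38, 1408, 1442, 1452, 2176],
   [38, 44, 396, 1440, 1804, 1894],
   [38, 44, 397, 1440, 1822, 1876],
   [38, 44, 415, 1408, 1804, 1937, 1990, 2516],
   [38, 44, 415, 1436, 1440, 1452, 1865, 2516],
   [38, 44, 1434, 1436, 1452, 1793, 2516],
   [38, 44, 1436, 1440, 1452, 1936, 2068, 2516],
   [38, 44, 1440, 1949, 2003],
   [38, 44, 1440, 1967, 1985],
   [38, 1408, 1412, 1436, 1452, 1454, 1793, 2516],
   [38, 1408, 1412, 1436, 1452, 1454, 1936, 2062, 2516],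
   [38, 1430, 1440, 2176, 2290],
   [40, 42, 1430, 1450, 2176],
   [1408, 1412, 1420, 1430, 1448, 2176, 2290],
   [1418, 1420, 2176, 2516]]

/-- the invariant in blocks -/
def B : List (List (List ℕ)) := [b0, b1, b2]

/-- extra clauses about the first instant -/
def ex : List (List ℕ) := [[120], [122], [148], [150]]

/-- the same for all instants -/
def exF : List (List ℕ) := [[1105,120], [1105,122], [1105,148], [1105,150]]

/-- invariant and extra clauses -/
def BX : List (List (List ℕ)) := B ++ [exF]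

/-- the invariant -/
def inv : List (List ℕ) := [1105] :: B.flatten

/-- the start word -/
def units : List (List ℕ) := [[760], [770], [776], [786], [798], [802]]

theorem inv_st : ∀ c ∈ inv, ∀ j ∈ c, j / 2 < 704 * (G.R + G.Y) ∧ isSt (j / 2 % 704) = true :=
  stc_sound (by decide +kernel)

end Vale.Agent.P032.R2.H805.S2m.W3
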